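import Mathlib

set_option autoImplicit false

namespace Crest.Agent.GeomAvoid

open Finset MeasureTheory
open scoped ENNReal

/-- uniform average over a finite type -/
noncomputable def avg {Ω : Type} [Fintype Ω] (f : Ω → ℝ≥0∞) : ℝ≥0∞ :=
  (∑ ω, f ω) * ((Fintype.card Ω : ℝ≥0∞))⁻¹

section
variable {Ω : Type} [Fintype Ω]

lemma avg_mono {f g : Ω → ℝ≥0∞} (h : ∀ ω, f ω ≤ g ω) : avg f ≤ avg g := by
  unfold avg; gcongr with ω; exact h ω

lemma avg_add (f g : Ω → ℝ≥0∞) : avg (fun ω => f ω + g ω) = avg f + avg g := by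
  unfold avg; rw [Finset.sum_add_distrib, add_mul]

lemma avg_const [Nonempty Ω] (c : ℝ≥0∞) : avg (fun _ : Ω => c) = c := by
  unfold avg
  rw [Finset.sum_const, Finset.card_univ, nsmul_eq_mul, mul_comm _ c, mul_assoc,
    ENNReal.mul_inv_cancel (by simp) (by simp), mul_one]

lemma avg_sum {ι : Type*} (s : Finset ι) (f : ι → Ω → ℝ≥0∞) :
    avg (fun ω => ∑ i ∈ s, f i ω) = ∑ i ∈ s, avg (f i) := by
  unfold avg; rw [Finset.sum_comm, Finset.sum_mul]

lemma avg_mul_const (f : Ω → ℝ≥0∞) (c : ℝ≥0∞) : avg (fun ω => f ω * c) = avg f * c := by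
  unfold avg; rw [← Finset.sum_mul]; ring

lemma exists_le_avg [Nonempty Ω] (f : Ω → ℝ≥0∞) : ∃ ω, f ω ≤ avg f := by
  obtain ⟨ω, hω⟩ := Finite.exists_min f
  exact ⟨ω, (avg_const (Ω := Ω) (f ω)).symm.le.trans (avg_mono hω)⟩

lemma avg_pi_prod {ι : Type} [Fintype ι] [DecidableEq ι] [Nonempty Ω] (g : ι → Ω → ℝ≥0∞) :
    avg (fun ω : ι → Ω => ∏ j, g j (ω j)) = ∏ j, avg (g j) := by
  unfold avg
  rw [Finset.prod_mul_distrib, Finset.prod_univ_sum, Fintype.piFinset_univ, Finset.prod_const,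
    Fintype.card_fun, Finset.card_univ, Nat.cast_pow, ENNReal.inv_pow]

lemma avg_inj_prod {ι κ : Type} [Fintype ι] [DecidableEq ι] [Fintype κ] [Nonempty Ω]
    (φ : κ → ι) (hφ : Function.Injective φ) (g : κ → Ω → ℝ≥0∞) :
    avg (fun ω : ι → Ω => ∏ k, g k (ω (φ k))) = ∏ k, avg (g k) := by
  set G : ι → Ω → ℝ≥0∞ := Function.extend φ g (fun _ _ => 1) with hG
  have h1 : ∀ k, G (φ k) = g k := fun k => hφ.extend_apply _ _ k
  have h2 : ∀ i, i ∉ Set.range φ → G i = fun _ => 1 := fun i hi => by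
    rw [hG, Function.extend_apply' _ _ _ (by simpa using hi)]
  have e1 : (fun ω : ι → Ω => ∏ k, g k (ω (φ k))) = fun ω => ∏ j, G j (ω j) := by
    funext ω
    exact Fintype.prod_of_injective φ hφ _ _ (fun i hi => by rw [h2 i hi]) (fun k => by rw [h1])
  rw [e1, avg_pi_prod]
  symm
  exact Fintype.prod_of_injective φ hφ _ _ (fun i hi => by rw [h2 i hi, avg_const])
    (fun k => by rw [h1])

lemma avg_eval {ι : Type} [Fintype ι] [DecidableEq ι] [Nonempty Ω] (j : ι) (g : Ω → ℝ≥0∞) :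
    avg (fun ω : ι → Ω => g (ω j)) = avg g := by
  have := avg_inj_prod (Ω := Ω) (fun _ : Unit => j) (fun _ _ _ => rfl) (fun _ => g)
  simpa using this

lemma avg_coin {A B : Type} [Fintype A] [Fintype B] [Nonempty A] [Nonempty B]
    (f : A → ℝ≥0∞) (g : B → ℝ≥0∞) :
    avg (fun c : Bool × A × B => if c.1 then f c.2.1 else g c.2.2) = avg f * 2⁻¹ + avg g * 2⁻¹ := by
  unfold avg
  have hA : (Fintype.card A : ℝ≥0∞) ≠ 0 := by simp
  have hB : (Fintype.card B : ℝ≥0∞) ≠ 0 := by simp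
  have hA' : (Fintype.card A : ℝ≥0∞) ≠ ⊤ := by simp
  have hB' : (Fintype.card B : ℝ≥0∞) ≠ ⊤ := by simp
  simp only [Fintype.sum_prod_type, Fintype.sum_bool, if_true, Bool.false_eq_true, if_false,
    Finset.sum_const, Finset.card_univ, nsmul_eq_mul, Fintype.card_prod, Fintype.card_bool,
    Nat.cast_mul, Nat.cast_ofNat]
  rw [ENNReal.mul_inv (by simp) (by simp), ENNReal.mul_inv (Or.inl hA) (Or.inl hA'),
    ← Finset.mul_sum, add_mul]
  congr 1
  · calc _ = ((Fintype.card B : ℝ≥0∞) * (Fintype.card B : ℝ≥0∞)⁻¹) *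
          ((∑ a, f a) * (Fintype.card A : ℝ≥0∞)⁻¹ * 2⁻¹) := by ring
      _ = _ := by rw [ENNReal.mul_inv_cancel hB hB', one_mul]
  · calc _ = ((Fintype.card A : ℝ≥0∞) * (Fintype.card A : ℝ≥0∞)⁻¹) *
          ((∑ a, g a) * (Fintype.card B : ℝ≥0∞)⁻¹ * 2⁻¹) := by ring
      _ = _ := by rw [ENNReal.mul_inv_cancel hA hA', one_mul]

lemma ofReal_half_add {a b : ℝ} (ha : 0 ≤ a) (hb : 0 ≤ b) :
    ENNReal.ofReal a * 2⁻¹ + ENNReal.ofReal b * 2⁻¹ = ENNReal.ofReal ((a + b) / 2) := by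
  rw [← add_mul, ← ENNReal.ofReal_add ha hb, ENNReal.ofReal_div_of_pos (by norm_num),
    ENNReal.ofReal_ofNat, div_eq_mul_inv]

open Classical in
/-- probability of an event -/
noncomputable def pr (P : Ω → Prop) : ℝ≥0∞ := avg fun ω => if P ω then 1 else 0

lemma pr_mono {P Q : Ω → Prop} (h : ∀ ω, P ω → Q ω) : pr P ≤ pr Q := by
  classical
  refine avg_mono fun ω => ?_
  by_cases hP : P ω
  · simp [hP, h ω hP]
  · simp [hP]

lemma pr_le_one [Nonempty Ω] (P : Ω → Prop) : pr P ≤ 1 := by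
  classical
  refine le_trans (avg_mono fun ω => ?_) (avg_const (Ω := Ω) 1).le
  split_ifs <;> simp

lemma pr_false : pr (fun _ : Ω => False) = 0 := by simp [pr, avg]

lemma pr_true [Nonempty Ω] : pr (fun _ : Ω => True) = 1 := by simp [pr, avg_const]

lemma pr_exists_le {ι : Type*} (s : Finset ι) (P : ι → Ω → Prop) :
    pr (fun ω => ∃ i ∈ s, P i ω) ≤ ∑ i ∈ s, pr (P i) := by
  classical
  unfold pr
  rw [← avg_sum]
  refine avg_mono fun ω => ?_
  split_ifs with h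
  · obtain ⟨i, hi, hP⟩ := h
    refine le_trans ?_ (Finset.single_le_sum (f := fun i => if P i ω then (1 : ℝ≥0∞) else 0)
      (fun _ _ => zero_le) hi)
    simp [hP]
  · exact zero_le

lemma pr_eval {ι : Type} [Fintype ι] [DecidableEq ι] [Nonempty Ω] (j : ι) (P : Ω → Prop) :
    pr (fun ω : ι → Ω => P (ω j)) = pr P := by
  classical
  unfold pr
  exact avg_eval j (fun a => if P a then 1 else 0)

lemma pr_inj {ι κ : Type} [Fintype ι] [DecidableEq ι] [Fintype κ] [Nonempty Ω]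
    (φ : κ → ι) (hφ : Function.Injective φ) (P : κ → Ω → Prop) :
    pr (fun ω : ι → Ω => ∀ k, P k (ω (φ k))) = ∏ k, pr (P k) := by
  classical
  unfold pr
  rw [← avg_inj_prod φ hφ]
  congr 1
  funext ω
  rw [Finset.prod_ite_zero]
  simp

lemma pr_coin {A B : Type} [Fintype A] [Fintype B] [Nonempty A] [Nonempty B]
    (P : A → Prop) (Q : B → Prop) :
    pr (fun c : Bool × A × B => if c.1 then P c.2.1 else Q c.2.2) = pr P * 2⁻¹ + pr Q * 2⁻¹ := by
  classical
  unfold pr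
  rw [← avg_coin]
  congr 1
  funext c
  rcases c with ⟨c, a, b⟩
  cases c <;> simp

/-- Tonelli for finite averages of measurable sets -/
lemma avg_volume_eq [Nonempty Ω] (S : Ω → Set ℝ) (hS : ∀ ω, MeasurableSet (S ω)) :
    avg (fun ω => volume (S ω)) = ∫⁻ x, pr (fun ω => x ∈ S ω) := by
  classical
  unfold pr avg
  rw [lintegral_mul_const' _ _ (by simp), lintegral_finsetSum]
  · congr 1
    refine Finset.sum_congr rfl fun ω _ => ?_
    beta_reduce
    rw [← lintegral_indicator_one (hS ω)]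
    congr 1
  · intro ω _
    exact Measurable.ite (hS ω) measurable_const measurable_const

end

/-- the union of rescaled copies -/
def tile (M : ℕ) (S : Fin M → Set ℝ) : Set ℝ := {z | ∃ j : Fin M, (M : ℝ) * z - (j : ℕ) ∈ S j}

lemma volume_tile_le {M : ℕ} (hM : 0 < M) (S : Fin M → Set ℝ) :
    volume (tile M S) ≤ (∑ j, volume (S j)) * (M : ℝ≥0∞)⁻¹ := by
  have e : tile M S = ⋃ j : Fin M, (fun z => (M : ℝ) * z) ⁻¹' ((fun y => y - ((j : ℕ) : ℝ)) ⁻¹' S j) := by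
    ext z; simp [tile]
  rw [e, Finset.sum_mul]
  refine (measure_iUnion_fintype_le _ _).trans (le_of_eq ?_)
  refine Finset.sum_congr rfl fun j _ => ?_
  have hM' : (M : ℝ) ≠ 0 := by positivity
  simp only [sub_eq_add_neg]
  rw [Real.volume_preimage_mul_left hM', measure_preimage_add_right, mul_comm]
  congr 1
  rw [abs_of_pos (by positivity), ENNReal.ofReal_inv_of_pos (by positivity), ENNReal.ofReal_natCast]

lemma volume_tile_const_le {M : ℕ} (hM : 0 < M) (S : Set ℝ) :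
    volume (tile M fun _ => S) ≤ volume S := by
  refine (volume_tile_le hM _).trans (le_of_eq ?_)
  have : Nonempty (Fin M) := ⟨⟨0, hM⟩⟩
  have := avg_const (Ω := Fin M) (volume S)
  simpa [avg] using this

lemma exists_tile {M : ℕ} (hM : 0 < M) {x : ℝ} (hx : x ∈ Set.Ico (0 : ℝ) 1) :
    ∃ j : Fin M, (M : ℝ) * x - (j : ℕ) ∈ Set.Ico (0 : ℝ) 1 := by
  have hM' : (0 : ℝ) < M := by positivity
  have h0 : 0 ≤ (M : ℝ) * x := mul_nonneg hM'.le hx.1
  have h1 : ⌊(M : ℝ) * x⌋₊ < M := by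
    rw [Nat.floor_lt h0]; nlinarith [hx.2]
  refine ⟨⟨_, h1⟩, ?_, ?_⟩
  · simp only [sub_nonneg]; exact Nat.floor_le h0
  · have := Nat.lt_floor_add_one ((M : ℝ) * x); simp only; linarith

end Crest.Agent.GeomAvoid
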