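import Crest.Agent.GeomAvoid.Avg

set_option autoImplicit false

namespace Crest.Agent.GeomAvoid

open Finset MeasureTheory Set
open scoped ENNReal

/-- `x` carries a two-sided geometric progression that misses `V` -/
def bad (q : ℝ) (V : Set ℝ) (x : ℝ) : Prop := ∃ s : ℝ, s ≠ 0 ∧ ∀ n : ℤ, x + s * q ^ n ∉ V

/-- robust hit -/
def RH (q h : ℝ) (V : Set ℝ) (x s : ℝ) : Prop :=
  ∃ n : ℤ, ∀ s' : ℝ, |s' - s| ≤ h * |s| → x + s' * q ^ n ∈ V

lemma exists_norm {q : ℝ} (hq0 : 0 < q) (hq1 : q < 1) {s δ : ℝ} (hs : s ≠ 0) (hδ : 0 < δ) :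
    ∃ k : ℤ, δ * q ≤ |s * q ^ k| ∧ |s * q ^ k| ≤ δ := by
  have hs' : 0 < |s| := abs_pos.2 hs
  obtain ⟨n, h1, h2⟩ := exists_mem_Ico_zpow (x := |s| / δ) (y := q⁻¹) (by positivity)
    ((one_lt_inv₀ hq0).2 hq1)
  refine ⟨n + 1, ?_, ?_⟩
  · rw [abs_mul, abs_of_pos (zpow_pos hq0 _), zpow_add_one₀ hq0.ne', ← mul_assoc]
    refine mul_le_mul_of_nonneg_right ?_ hq0.le
    rw [inv_zpow, le_div_iff₀ hδ, inv_mul_le_iff₀ (zpow_pos hq0 _)] at h1
    linarith
  · rw [abs_mul, abs_of_pos (zpow_pos hq0 _)]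
    rw [inv_zpow, div_lt_iff₀ hδ, lt_inv_mul_iff₀ (zpow_pos hq0 _)] at h2
    linarith

lemma bad_norm {q : ℝ} (hq0 : 0 < q) (hq1 : q < 1) {V : Set ℝ} {x : ℝ} (h : bad q V x) :
    ∃ s : ℝ, q ≤ |s| ∧ |s| ≤ 1 ∧ ∀ n : ℤ, x + s * q ^ n ∉ V := by
  obtain ⟨s, hs, hn⟩ := h
  obtain ⟨k, h1, h2⟩ := exists_norm hq0 hq1 hs one_pos
  refine ⟨s * q ^ k, by simpa using h1, h2, fun n => ?_⟩
  rw [mul_assoc, ← zpow_add₀ hq0.ne']
  exact hn _

lemma isClosed_bad {q : ℝ} (hq0 : 0 < q) (hq1 : q < 1) {V : Set ℝ} (hV : IsOpen V) :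
    IsClosed {x | bad q V x} := by
  set K : Set ℝ := {s | q ≤ |s| ∧ |s| ≤ 1} with hK
  have hKc : IsCompact K := by
    refine (isCompact_Icc (a := (-1 : ℝ)) (b := 1)).of_isClosed_subset ?_ ?_
    · exact (isClosed_le continuous_const continuous_abs).inter
        (isClosed_le continuous_abs continuous_const)
    · intro s hs; exact abs_le.1 hs.2
  have : CompactSpace K := isCompact_iff_compactSpace.1 hKc
  have hC : IsClosed {p : ℝ × K | ∀ n : ℤ, p.1 + (p.2 : ℝ) * q ^ n ∉ V} := by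
    rw [Set.ofPred_forall]
    refine isClosed_iInter fun n => ?_
    exact (hV.isClosed_compl).preimage (f := fun p : ℝ × K => p.1 + (p.2 : ℝ) * q ^ n) (by fun_prop)
  have := isClosedMap_fst_of_compactSpace _ hC
  convert this using 1
  ext x
  constructor
  · intro hx
    obtain ⟨s, h1, h2, h3⟩ := bad_norm hq0 hq1 hx
    exact ⟨(x, ⟨s, h1, h2⟩), h3, rfl⟩
  · rintro ⟨⟨y, s, h1, h2⟩, h3, rfl⟩
    exact ⟨s, abs_pos.1 (hq0.trans_le h1), h3⟩

lemma bad_tile {q : ℝ} {M : ℕ} (hM : 0 < M) {S : Fin M → Set ℝ} {x : ℝ} (h : bad q (tile M S) x)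
    (j : Fin M) : bad q (S j) ((M : ℝ) * x - (j : ℕ)) := by
  obtain ⟨s, hs, hn⟩ := h
  refine ⟨M * s, mul_ne_zero (by positivity) hs, fun n hmem => hn n ⟨j, ?_⟩⟩
  convert hmem using 1; ring

lemma RH_tile {q h : ℝ} {M : ℕ} (hM : 0 < M) {S : Fin M → Set ℝ} {x s : ℝ} (j : Fin M)
    (H : RH q h (S j) ((M : ℝ) * x - (j : ℕ)) (M * s)) : RH q h (tile M S) x s := by
  obtain ⟨n, hn⟩ := H
  refine ⟨n, fun s' hs' => ⟨j, ?_⟩⟩
  have hM' : (0 : ℝ) < M := by positivity
  have := hn (M * s') (by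
    rw [← mul_sub, abs_mul, abs_mul, abs_of_pos hM']
    nlinarith)
  convert this using 1; ring

lemma RH_shift {q h : ℝ} (hq0 : 0 < q) {V : Set ℝ} {x s : ℝ} (k : ℤ)
    (H : RH q h V x (s * q ^ k)) : RH q h V x s := by
  obtain ⟨n, hn⟩ := H
  refine ⟨k + n, fun s' hs' => ?_⟩
  have hk : 0 < q ^ k := zpow_pos hq0 k
  have := hn (s' * q ^ k) (by
    rw [← sub_mul, abs_mul, abs_mul, abs_of_pos hk]
    nlinarith)
  rwa [mul_assoc, ← zpow_add₀ hq0.ne'] at this

/-- random families of sets -/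
structure Fam (p : ℝ) where
  Ω : Type
  [fin : Fintype Ω]
  [ne : Nonempty Ω]
  U : Ω → Set ℝ
  V : Ω → Set ℝ
  ρ : ℝ
  hρ : 0 < ρ
  hU : ∀ y ∈ Set.Ico (0 : ℝ) 1, pr (fun ω => y ∉ U ω) ≤ ENNReal.ofReal (1 - p)
  hUV : ∀ ω, ∀ y ∈ U ω, ∀ z, |z - y| ≤ ρ → z ∈ V ω
  hopen : ∀ ω, IsOpen (V ω)
  hsub : ∀ ω, V ω ⊆ Set.Ioo (-1) 2
  hvol : avg (fun ω => volume (V ω)) ≤ ENNReal.ofReal (3 * p)

attribute [instance] Fam.fin Fam.ne

lemma avg_tile_le {A : Type} [Fintype A] [Nonempty A] {M : ℕ} (hM : 0 < M) (S : A → Set ℝ) :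
    avg (fun ω : Fin M → A => volume (tile M fun j => S (ω j))) ≤ avg (fun a => volume (S a)) := by
  have : Nonempty (Fin M) := ⟨⟨0, hM⟩⟩
  refine (avg_mono fun ω => volume_tile_le hM _).trans (le_of_eq ?_)
  rw [avg_mul_const, avg_sum]
  simp only [avg_eval _ (fun a => volume (S a))]
  have := avg_const (Ω := Fin M) (avg (fun a => volume (S a)))
  simpa [avg] using this

lemma tile_subset {M : ℕ} (hM : 0 < M) {S : Fin M → Set ℝ} (hS : ∀ j, S j ⊆ Set.Ioo (-1) 2) :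
    tile M S ⊆ Set.Ioo (-1) 2 := by
  rintro z ⟨j, hj⟩
  obtain ⟨h1, h2⟩ := hS j hj
  have hM1 : (1 : ℝ) ≤ M := by exact_mod_cast hM
  have hj0 : (0 : ℝ) ≤ (j : ℕ) := by positivity
  have hj1 : ((j : ℕ) : ℝ) + 1 ≤ M := by exact_mod_cast j.2
  constructor
  · by_contra hz
    push Not at hz
    nlinarith
  · by_contra hz
    push Not at hz
    nlinarith

lemma isOpen_tile {M : ℕ} {S : Fin M → Set ℝ} (hS : ∀ j, IsOpen (S j)) : IsOpen (tile M S) := by
  unfold tile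
  rw [Set.ofPred_exists]
  exact isOpen_iUnion fun j => (hS j).preimage (f := fun z : ℝ => (M : ℝ) * z - (j : ℕ)) (by fun_prop)

lemma measurableSet_tile {M : ℕ} {S : Fin M → Set ℝ} (hS : ∀ j, MeasurableSet (S j)) :
    MeasurableSet (tile M S) := by
  unfold tile
  rw [Set.ofPred_exists]
  exact MeasurableSet.iUnion fun j =>
    (show Measurable fun z : ℝ => (M : ℝ) * z - (j : ℕ) by fun_prop) (hS j)

/-- the combination of two families along a tiling with `M` pieces -/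
noncomputable def Fam.combine {p : ℝ} (hp0 : 0 ≤ p) (hp1 : p ≤ 1) (F G : Fam p) (M : ℕ)
    (hM : 0 < M) : Fam p where
  Ω := Fin M → Bool × F.Ω × G.Ω
  U ω := tile M fun j => if (ω j).1 then F.U (ω j).2.1 else G.U (ω j).2.2
  V ω := tile M fun j => if (ω j).1 then F.V (ω j).2.1 else G.V (ω j).2.2
  ρ := min F.ρ G.ρ / M
  hρ := div_pos (lt_min F.hρ G.hρ) (by positivity)
  hU y hy := by
    obtain ⟨j, hj⟩ := exists_tile hM hy
    calc _ ≤ pr (fun ω : Fin M → Bool × F.Ω × G.Ω =>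
          if (ω j).1 then ((M : ℝ) * y - (j : ℕ) ∉ F.U (ω j).2.1)
            else ((M : ℝ) * y - (j : ℕ) ∉ G.U (ω j).2.2)) := by
          refine pr_mono fun ω h => ?_
          split_ifs with hc
          · exact fun h' => h ⟨j, by simpa [hc] using h'⟩
          · exact fun h' => h ⟨j, by simpa [hc] using h'⟩
      _ = _ := pr_eval j (fun c : Bool × F.Ω × G.Ω => if c.1 then ((M : ℝ) * y - (j : ℕ) ∉ F.U c.2.1)
            else ((M : ℝ) * y - (j : ℕ) ∉ G.U c.2.2))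
      _ = _ := pr_coin (fun a => (M : ℝ) * y - (j : ℕ) ∉ F.U a)
            (fun b => (M : ℝ) * y - (j : ℕ) ∉ G.U b)
      _ ≤ ENNReal.ofReal (1 - p) * 2⁻¹ + ENNReal.ofReal (1 - p) * 2⁻¹ := by
          gcongr
          · exact F.hU _ hj
          · exact G.hU _ hj
      _ = _ := by rw [ofReal_half_add (by linarith) (by linarith)]; congr 1; ring
  hUV ω y hy z hz := by
    obtain ⟨j, hj⟩ := hy
    refine ⟨j, ?_⟩
    have hM' : (0 : ℝ) < M := by positivity
    have : |((M : ℝ) * z - (j : ℕ)) - ((M : ℝ) * y - (j : ℕ))| ≤ min F.ρ G.ρ := by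
      rw [sub_sub_sub_cancel_right, ← mul_sub, abs_mul, abs_of_pos hM']
      rwa [le_div_iff₀' hM'] at hz
    by_cases hc : (ω j).1
    · simp only [hc, if_true] at hj ⊢
      exact F.hUV _ _ hj _ (this.trans (min_le_left _ _))
    · simp only [hc] at hj ⊢
      exact G.hUV _ _ hj _ (this.trans (min_le_right _ _))
  hopen ω := isOpen_tile fun j => by
    split_ifs
    · exact F.hopen _
    · exact G.hopen _
  hsub ω := tile_subset hM fun j => by
    split_ifs
    · exact F.hsub _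
    · exact G.hsub _
  hvol := by
    calc _ ≤ avg (fun c : Bool × F.Ω × G.Ω => volume (if c.1 then F.V c.2.1 else G.V c.2.2)) :=
          avg_tile_le hM (fun c : Bool × F.Ω × G.Ω => if c.1 then F.V c.2.1 else G.V c.2.2)
      _ = avg (fun c : Bool × F.Ω × G.Ω => if c.1 then volume (F.V c.2.1) else volume (G.V c.2.2)) := by
          congr 1; funext c; split_ifs <;> rfl
      _ = _ := avg_coin (fun a => volume (F.V a)) (fun b => volume (G.V b))
      _ ≤ ENNReal.ofReal (3 * p) * 2⁻¹ + ENNReal.ofReal (3 * p) * 2⁻¹ := by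
          gcongr
          · exact F.hvol
          · exact G.hvol
      _ = _ := by rw [ofReal_half_add (by linarith) (by linarith)]; congr 1; ring

/-- the base family -/
noncomputable def Fam.base (P : ℕ) : Fam (1 / (P + 1 : ℝ)) where
  Ω := Option (Fin P)
  U ω := if ω = none then Set.Ico 0 1 else ∅
  V ω := if ω = none then Set.Ioo (-1) 2 else ∅
  ρ := 1 / 2
  hρ := by norm_num
  hU y hy := by
    classical
    unfold pr avg
    rw [Fintype.sum_option]
    simp only [if_true, hy, not_true, if_false, reduceCtorEq, Set.mem_empty_iff_false,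
      not_false_iff, Finset.sum_const, Finset.card_univ, Fintype.card_fin, nsmul_eq_mul, mul_one,
      zero_add, Fintype.card_option]
    have : (1 : ℝ) - 1 / (P + 1) = P / (P + 1) := by field_simp; ring
    rw [this, ENNReal.ofReal_div_of_pos (by positivity), div_eq_mul_inv, ENNReal.ofReal_natCast]
    have : ENNReal.ofReal ((P : ℝ) + 1) = ((P + 1 : ℕ) : ℝ≥0∞) := by
      rw [← ENNReal.ofReal_natCast]; push_cast; rfl
    rw [this]
  hUV ω y hy z hz := by
    by_cases h : ω = none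
    · simp only [h, if_true] at hy ⊢
      obtain ⟨h1, h2⟩ := abs_le.1 hz
      exact ⟨by linarith [hy.1], by linarith [hy.2]⟩
    · simp [h] at hy
  hopen ω := by
    split_ifs
    · exact isOpen_Ioo
    · exact isOpen_empty
  hsub ω := by
    split_ifs
    · exact subset_rfl
    · exact Set.empty_subset _
  hvol := by
    unfold avg
    rw [Fintype.sum_option]
    simp only [if_true, if_false, reduceCtorEq, measure_empty, Finset.sum_const_zero, add_zero,
      Real.volume_Ioo, Fintype.card_option, Fintype.card_fin]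
    have : ENNReal.ofReal ((P : ℝ) + 1) = ((P + 1 : ℕ) : ℝ≥0∞) := by
      rw [← ENNReal.ofReal_natCast]; push_cast; rfl
    rw [← this, ← div_eq_mul_inv, ← ENNReal.ofReal_div_of_pos (by positivity)]
    apply le_of_eq; congr 1; ring

/-- expected measure of the bad set -/
noncomputable def Fam.b {p : ℝ} (q : ℝ) (F : Fam p) : ℝ≥0∞ :=
  avg fun ω => volume {x | x ∈ Set.Ico (0 : ℝ) 1 ∧ bad q (F.V ω) x}

lemma Fam.b_le_one {p : ℝ} (q : ℝ) (F : Fam p) : F.b q ≤ ENNReal.ofReal 1 := by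
  refine le_trans (avg_mono fun ω => ?_) (avg_const (Ω := F.Ω) _).le
  refine (measure_mono (t := Set.Ico (0 : ℝ) 1) fun x hx => hx.1).trans ?_
  simp

end Crest.Agent.GeomAvoid
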