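import Crest.Agent.GeomAvoid.Fam

set_option autoImplicit false

namespace Crest.Agent.GeomAvoid

open Finset MeasureTheory Set
open scoped ENNReal

/-- separated points of `[0,1)` lie in distinct tiles -/
lemma exists_inj_tiles {κ : Type} {M : ℕ} (hM : 0 < M) (y : κ → ℝ) (hy : ∀ k, y k ∈ Set.Ico (0 : ℝ) 1)
    (hsep : ∀ k l, k ≠ l → 1 ≤ (M : ℝ) * |y k - y l|) :
    ∃ φ : κ → Fin M, Function.Injective φ ∧ ∀ k, (M : ℝ) * y k - (φ k : ℕ) ∈ Set.Ico (0 : ℝ) 1 := by
  choose φ hφ using fun k => exists_tile hM (hy k)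
  refine ⟨φ, fun k l hkl => ?_, hφ⟩
  by_contra hne
  have h1 := hsep k l hne
  have h2 := hφ k
  have h3 := hφ l
  rw [hkl] at h2
  have hM' : (0 : ℝ) < M := by positivity
  rw [← abs_of_pos hM', ← abs_mul] at h1
  have : |(M : ℝ) * (y k - y l)| < 1 := by
    rw [abs_lt]; constructor <;> nlinarith [h2.1, h2.2, h3.1, h3.2]
  linarith

lemma tile_unique {M : ℕ} {x : ℝ} {i j : Fin M} (hi : (M : ℝ) * x - (i : ℕ) ∈ Set.Ico (0 : ℝ) 1)
    (hj : (M : ℝ) * x - (j : ℕ) ∈ Set.Ico (0 : ℝ) 1) : i = j := by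
  apply Fin.ext
  have h1 : ((i : ℕ) : ℝ) < (j : ℕ) + 1 := by linarith [hi.1, hj.2]
  have h2 : ((j : ℕ) : ℝ) < (i : ℕ) + 1 := by linarith [hj.1, hi.2]
  have h1' : (i : ℕ) < (j : ℕ) + 1 := by exact_mod_cast h1
  have h2' : (j : ℕ) < (i : ℕ) + 1 := by exact_mod_cast h2
  omega

lemma pow_sep {q : ℝ} (hq0 : 0 < q) (hq1 : q < 1) {m a b : ℕ} (ha : a < m) (hb : b < m)
    (hab : a ≠ b) : q ^ m * (1 - q) ≤ q * |q ^ a - q ^ b| := by
  wlog h : a < b generalizing a b
  · rw [abs_sub_comm]; exact this hb ha hab.symm (by omega)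
  have h1 : q ^ b ≤ q ^ (a + 1) := pow_le_pow_of_le_one hq0.le hq1.le h
  have h2 : q ^ m ≤ q ^ (a + 1) := pow_le_pow_of_le_one hq0.le hq1.le ha
  have h3 : 0 < q ^ a := pow_pos hq0 a
  rw [pow_succ] at h1 h2
  rw [abs_of_nonneg (by nlinarith)]
  nlinarith

lemma step_ind {p q δ β : ℝ} (hp0 : 0 ≤ p) (hp1 : p ≤ 1) (hq0 : 0 < q) (hq1 : q < 1)
    (hδ0 : 0 < δ) (hδ1 : δ ≤ 1) (hβ : 0 ≤ β) (F : Fam p) (hF : F.b q ≤ ENNReal.ofReal β)
    (m M : ℕ) (hM : 0 < M) (hMm : 1 ≤ (M : ℝ) * (δ * (q ^ m * (1 - q)))) (r : ℕ) :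
    ∃ (G : Fam p) (T : G.Ω → Set ℝ) (N : Set ℝ), (∀ ω, MeasurableSet (T ω)) ∧
      volume N ≤ ENNReal.ofReal (2 * r * δ) ∧
      avg (fun ω => volume {x | x ∈ Set.Ico (0 : ℝ) 1 ∧ bad q (G.V ω) x ∧ x ∉ T ω}) ≤
        ENNReal.ofReal ((1 - (1 / 2) ^ r) * β) ∧
      ∀ x ∈ Set.Ico (0 : ℝ) 1, x ∉ N → ∀ s : ℝ, s ≠ 0 →
        pr (fun ω => x ∈ T ω ∧ ¬ RH q (F.ρ / M) (G.V ω) x s) ≤
          ENNReal.ofReal ((1 - p / 2) ^ (m * r)) := by
  have hM' : (0 : ℝ) < M := by positivity
  induction r with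
  | zero =>
    refine ⟨F, fun _ => Set.univ, ∅, fun _ => MeasurableSet.univ, by simp, ?_, ?_⟩
    · simp [avg]
    · intro x _ _ s _
      simpa using pr_le_one _
  | succ r ih =>
    obtain ⟨G, T, N, hT, hN, hA, hB⟩ := ih
    refine ⟨F.combine hp0 hp1 G M hM,
      fun ω : Fin M → Bool × F.Ω × G.Ω =>
        tile M fun j => if (ω j).1 then ∅ else Set.Ico 0 1 ∩ T (ω j).2.2,
      Set.Icc 0 δ ∪ Set.Icc (1 - δ) 1 ∪ tile M fun _ => N, fun ω => ?_, ?_, ?_, ?_⟩
    · refine measurableSet_tile fun j => ?_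
      split_ifs
      · exact MeasurableSet.empty
      · exact measurableSet_Ico.inter (hT _)
    · calc _ ≤ volume (Set.Icc 0 δ) + volume (Set.Icc (1 - δ) 1) + volume (tile M fun _ => N) :=
            (measure_union_le _ _).trans (add_le_add_left (measure_union_le _ _) _)
        _ ≤ ENNReal.ofReal δ + ENNReal.ofReal δ + ENNReal.ofReal (2 * r * δ) := by
            gcongr
            · simp
            · simp
            · exact (volume_tile_const_le hM N).trans hN
        _ = _ := by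
            rw [← ENNReal.ofReal_add hδ0.le hδ0.le, ← ENNReal.ofReal_add (by positivity)
              (by positivity)]
            congr 1; push_cast; ring
    · set S : Bool × F.Ω × G.Ω → Set ℝ := fun c =>
        if c.1 then {x | x ∈ Set.Ico (0 : ℝ) 1 ∧ bad q (F.V c.2.1) x}
        else {x | x ∈ Set.Ico (0 : ℝ) 1 ∧ bad q (G.V c.2.2) x ∧ x ∉ T c.2.2} with hS
      calc _ ≤ avg (fun ω : Fin M → Bool × F.Ω × G.Ω => volume (tile M fun j => S (ω j))) := by
            refine avg_mono fun ω => measure_mono ?_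
            rintro x ⟨hx, hb, hn⟩
            obtain ⟨j, hj⟩ := exists_tile hM hx
            have hb' := bad_tile hM hb j
            refine ⟨j, ?_⟩
            by_cases hc : (ω j).1
            · simp only [hS, hc, if_true] at hb' ⊢
              exact ⟨hj, hb'⟩
            · simp only [hS, hc] at hb' ⊢
              refine ⟨hj, hb', fun h => hn ⟨j, ?_⟩⟩
              simp only [hc]
              exact ⟨hj, h⟩
        _ ≤ avg (fun c => volume (S c)) := avg_tile_le hM S
        _ = avg (fun c : Bool × F.Ω × G.Ω =>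
              if c.1 then volume {x | x ∈ Set.Ico (0 : ℝ) 1 ∧ bad q (F.V c.2.1) x}
              else volume {x | x ∈ Set.Ico (0 : ℝ) 1 ∧ bad q (G.V c.2.2) x ∧ x ∉ T c.2.2}) := by
            congr 1; funext c; simp only [hS]; split_ifs <;> rfl
        _ = _ := avg_coin (fun a => volume {x | x ∈ Set.Ico (0 : ℝ) 1 ∧ bad q (F.V a) x})
              (fun b => volume {x | x ∈ Set.Ico (0 : ℝ) 1 ∧ bad q (G.V b) x ∧ x ∉ T b})
        _ ≤ ENNReal.ofReal β * 2⁻¹ + ENNReal.ofReal ((1 - (1 / 2) ^ r) * β) * 2⁻¹ := by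
            gcongr
            exact hF
        _ = _ := by
            have : (1 / 2 : ℝ) ^ r ≤ 1 := pow_le_one₀ (by norm_num) (by norm_num)
            rw [ofReal_half_add hβ (mul_nonneg (by linarith) hβ)]
            congr 1; ring
    · intro x hx hxN s hs
      simp only [Set.mem_union, not_or, Set.mem_Icc, not_and, not_le] at hxN
      obtain ⟨⟨hx1, hx2⟩, hx3⟩ := hxN
      have hx1' : δ < x := hx1 hx.1
      have hx2' : x < 1 - δ := by
        by_contra h
        exact absurd (hx2 (not_lt.1 h)) (not_lt.2 hx.2.le)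
      obtain ⟨k, hk1, hk2⟩ := exists_norm hq0 hq1 hs hδ0
      set t := s * q ^ k with ht
      have ht0 : t ≠ 0 := abs_pos.1 ((mul_pos hδ0 hq0).trans_le hk1)
      set y : Option (Fin m) → ℝ := fun o => o.elim x fun i => x + t * q ^ (i : ℕ) with hy
      have habs : ∀ i : ℕ, |t * q ^ i| ≤ δ := by
        intro i
        rw [abs_mul, abs_of_pos (pow_pos hq0 i)]
        have : q ^ i ≤ 1 := pow_le_one₀ hq0.le hq1.le
        nlinarith [abs_nonneg t]
      have hy1 : ∀ o, y o ∈ Set.Ico (0 : ℝ) 1 := by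
        rintro (_ | i)
        · exact hx
        · obtain ⟨h1, h2⟩ := abs_le.1 (habs i)
          exact ⟨by simp only [hy, Option.elim]; linarith, by simp only [hy, Option.elim]; linarith⟩
      have hsep0 : ∀ i : Fin m, δ * (q ^ m * (1 - q)) ≤ |t * q ^ (i : ℕ)| := by
        intro i
        rw [abs_mul, abs_of_pos (pow_pos hq0 _)]
        have h2 : q ^ m ≤ q ^ ((i : ℕ) + 1) := pow_le_pow_of_le_one hq0.le hq1.le i.2
        have h3 : 0 < q ^ (i : ℕ) := pow_pos hq0 _
        have h4 : 0 < q ^ m := pow_pos hq0 _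
        rw [pow_succ] at h2
        calc δ * (q ^ m * (1 - q)) ≤ δ * (q ^ (i : ℕ) * q) := by
              apply mul_le_mul_of_nonneg_left _ hδ0.le; nlinarith
          _ = δ * q * q ^ (i : ℕ) := by ring
          _ ≤ _ := mul_le_mul_of_nonneg_right hk1 h3.le
      have hy2 : ∀ o o', o ≠ o' → 1 ≤ (M : ℝ) * |y o - y o'| := by
        intro o o' hne
        refine hMm.trans (mul_le_mul_of_nonneg_left ?_ hM'.le)
        rcases o with _ | i <;> rcases o' with _ | i'
        · exact absurd rfl hne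
        · simp only [hy, Option.elim]
          rw [sub_add_cancel_left, abs_neg]; exact hsep0 i'
        · simp only [hy, Option.elim]
          rw [add_sub_cancel_left]; exact hsep0 i
        · simp only [hy, Option.elim]
          rw [add_sub_add_left_eq_sub, ← mul_sub, abs_mul]
          have hne' : (i : ℕ) ≠ i' := fun h => hne (by rw [Fin.ext h])
          have := pow_sep hq0 hq1 i.2 i'.2 hne'
          calc _ ≤ δ * (q * |q ^ (i : ℕ) - q ^ (i' : ℕ)|) := mul_le_mul_of_nonneg_left this hδ0.le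
            _ = δ * q * |q ^ (i : ℕ) - q ^ (i' : ℕ)| := by ring
            _ ≤ _ := mul_le_mul_of_nonneg_right hk1 (abs_nonneg _)
      obtain ⟨φ, hφ, hφ'⟩ := exists_inj_tiles hM y hy1 hy2
      set x1 := (M : ℝ) * x - (φ none : ℕ) with hx1def
      have hx1mem : x1 ∈ Set.Ico (0 : ℝ) 1 := hφ' none
      have hx1N : x1 ∉ N := fun h => hx3 ⟨φ none, h⟩
      set P : Option (Fin m) → Bool × F.Ω × G.Ω → Prop := fun o c =>
        o.elim (if c.1 then False else (x1 ∈ T c.2.2 ∧ ¬ RH q (F.ρ / M) (G.V c.2.2) x1 (M * t)))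
          fun i => if c.1 then ((M : ℝ) * y (some i) - (φ (some i) : ℕ) ∉ F.U c.2.1) else True
        with hP
      calc _ ≤ pr (fun ω : Fin M → Bool × F.Ω × G.Ω => ∀ o, P o (ω (φ o))) := by
            refine pr_mono fun (ω : Fin M → Bool × F.Ω × G.Ω) h => ?_
            obtain ⟨⟨j, hj⟩, hR⟩ := h
            have hR' : ¬ RH q (F.ρ / M)
                (tile M fun j => if (ω j).1 then F.V (ω j).2.1 else G.V (ω j).2.2) x t :=
              fun h => hR (RH_shift hq0 k h)
            rintro (_ | i)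
            · by_cases hc : (ω j).1
              · simp [hc] at hj
              · simp only [hc] at hj
                have hjj : j = φ none := tile_unique hj.1 hx1mem
                subst hjj
                simp only [hP, Option.elim, hc]
                refine ⟨hj.2, fun h => hR' (RH_tile hM (φ none) ?_)⟩
                rw [if_neg hc]; exact h
            · by_cases hc : (ω (φ (some i))).1
              · simp only [hP, Option.elim, hc, if_true]
                intro hU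
                refine hR' ⟨((i : ℕ) : ℤ), fun s' hs' => ⟨φ (some i), ?_⟩⟩
                simp only [hc, if_true]
                refine F.hUV _ _ hU _ ?_
                simp only [hy, Option.elim, zpow_natCast]
                have e : (M : ℝ) * (x + s' * q ^ (i : ℕ)) - (φ (some i) : ℕ) -
                    ((M : ℝ) * (x + t * q ^ (i : ℕ)) - (φ (some i) : ℕ))
                    = M * ((s' - t) * q ^ (i : ℕ)) := by ring
                rw [e, abs_mul, abs_mul, abs_of_pos hM', abs_of_pos (pow_pos hq0 _)]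
                have h1 := habs i
                rw [abs_mul, abs_of_pos (pow_pos hq0 _)] at h1
                have h3 : 0 < q ^ (i : ℕ) := pow_pos hq0 _
                calc (M : ℝ) * (|s' - t| * q ^ (i : ℕ)) ≤ M * (F.ρ / M * |t| * q ^ (i : ℕ)) := by
                      gcongr
                  _ = F.ρ * (|t| * q ^ (i : ℕ)) := by field_simp
                  _ ≤ F.ρ * 1 := mul_le_mul_of_nonneg_left (h1.trans hδ1) F.hρ.le
                  _ = _ := mul_one _
              · simp only [hP, Option.elim, hc]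
                trivial
        _ = ∏ o, pr (P o) := pr_inj φ hφ P
        _ ≤ ENNReal.ofReal ((1 - p / 2) ^ (m * r)) * ∏ _i : Fin m, ENNReal.ofReal (1 - p / 2) := by
            rw [Fintype.prod_option]
            gcongr with i
            · have := pr_coin (A := F.Ω) (fun _ => False)
                (fun b : G.Ω => x1 ∈ T b ∧ ¬ RH q (F.ρ / M) (G.V b) x1 (M * t))
              simp only [hP, Option.elim]
              rw [this, pr_false, zero_mul, zero_add]
              refine le_trans (mul_le_of_le_one_right' (by simp)) ?_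
              exact hB x1 hx1mem hx1N _ (mul_ne_zero hM'.ne' ht0)
            · have := pr_coin (B := G.Ω)
                (fun a : F.Ω => (M : ℝ) * y (some i) - (φ (some i) : ℕ) ∉ F.U a) (fun _ => True)
              simp only [hP, Option.elim]
              rw [this, pr_true]
              calc _ ≤ ENNReal.ofReal (1 - p) * 2⁻¹ + ENNReal.ofReal 1 * 2⁻¹ := by
                    gcongr
                    · exact F.hU _ (hφ' (some i))
                    · simp
                _ = _ := by rw [ofReal_half_add (by linarith) (by norm_num)]; congr 1; ring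
        _ = _ := by
            have h0 : 0 ≤ 1 - p / 2 := by linarith
            rw [Finset.prod_const, Finset.card_univ, Fintype.card_fin, ← ENNReal.ofReal_pow h0,
              ← ENNReal.ofReal_mul (pow_nonneg h0 _), ← pow_add, Nat.mul_succ]

lemma exists_net {q h : ℝ} (hq0 : 0 < q) (hq1 : q < 1) (hh : 0 < h) {V : Set ℝ} {x : ℝ}
    (hb : bad q V x) :
    ∃ i ∈ (Finset.univ : Finset Bool) ×ˢ Finset.range (⌈1 / (h * q)⌉₊ + 1),
      ¬ RH q h V x ((if i.1 then 1 else -1) * (q + i.2 * (h * q))) := by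
  obtain ⟨s, h1, h2, h3⟩ := bad_norm hq0 hq1 hb
  have hγ : 0 < h * q := mul_pos hh hq0
  set i := ⌊(|s| - q) / (h * q)⌋₊ with hi
  have h0 : 0 ≤ (|s| - q) / (h * q) := div_nonneg (by linarith) hγ.le
  have hi1 : (i : ℝ) * (h * q) ≤ |s| - q := by
    have := Nat.floor_le h0
    rwa [le_div_iff₀ hγ] at this
  have hi2 : |s| - q < (i + 1) * (h * q) := by
    have := Nat.lt_floor_add_one ((|s| - q) / (h * q))
    rwa [div_lt_iff₀ hγ] at this
  have hi3 : i < ⌈1 / (h * q)⌉₊ + 1 := by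
    have : (i : ℝ) ≤ ⌈1 / (h * q)⌉₊ := by
      refine le_trans ?_ (Nat.le_ceil _)
      rw [le_div_iff₀ hγ]; linarith
    have : i ≤ ⌈1 / (h * q)⌉₊ := by exact_mod_cast this
    omega
  have hpos : 0 ≤ (i : ℝ) * (h * q) := by positivity
  by_cases hs : 0 ≤ s
  · refine ⟨(true, i), Finset.mem_product.2 ⟨Finset.mem_univ _, Finset.mem_range.2 hi3⟩, ?_⟩
    rintro ⟨n, hn⟩
    refine h3 n (hn s ?_)
    rw [abs_of_nonneg hs] at hi1 hi2
    simp only [if_true, one_mul]
    rw [abs_of_nonneg (by linarith), abs_of_nonneg (by linarith)]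
    nlinarith
  · refine ⟨(false, i), Finset.mem_product.2 ⟨Finset.mem_univ _, Finset.mem_range.2 hi3⟩, ?_⟩
    rintro ⟨n, hn⟩
    refine h3 n (hn s ?_)
    push Not at hs
    rw [abs_of_neg hs] at hi1 hi2
    simp only [Bool.false_eq_true, if_false]
    rw [abs_of_nonpos (by linarith), abs_of_nonpos (by linarith)]
    nlinarith

lemma step_main {p q β ε : ℝ} (hp0 : 0 ≤ p) (hp1 : p ≤ 1) (hq0 : 0 < q) (hq1 : q < 1)
    (hβ : 0 ≤ β) (hε : 0 < ε) (K : ℕ) (hK : (1 - p / 2) ^ K ≤ q / 2)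
    (F : Fam p) (hF : F.b q ≤ ENNReal.ofReal β) :
    ∃ G : Fam p, G.b q ≤ ENNReal.ofReal ((1 - (1 / 2) ^ K) * β + ε) := by
  set δ : ℝ := min 1 (ε / (4 * (K + 1))) with hδ
  have hδ0 : 0 < δ := lt_min one_pos (by positivity)
  have hδ1 : δ ≤ 1 := min_le_left _ _
  have hδ2 : 2 * K * δ ≤ ε / 2 := by
    have : δ ≤ ε / (4 * (K + 1)) := min_le_right _ _
    rw [le_div_iff₀ (by positivity)] at this
    nlinarith
  have hq1' : 0 < 1 - q := by linarith
  have hρ := F.hρ
  set C : ℝ := 2 * ((1 / (δ * (1 - q)) + 1) / (F.ρ * q) + 2) with hC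
  have hC0 : 0 < C := by positivity
  obtain ⟨m, hm⟩ := exists_pow_lt_of_lt_one (x := ε / 2 / C) (y := (1 / 2 : ℝ)) (by positivity)
    (by norm_num)
  have hqm : 0 < q ^ m := pow_pos hq0 m
  have hqm1 : q ^ m ≤ 1 := pow_le_one₀ hq0.le hq1.le
  set M : ℕ := ⌈1 / (δ * (q ^ m * (1 - q)))⌉₊ with hMdef
  have hM : 0 < M := Nat.ceil_pos.2 (by positivity)
  have hM' : (0 : ℝ) < M := by positivity
  have hMm : 1 ≤ (M : ℝ) * (δ * (q ^ m * (1 - q))) := by
    have := Nat.le_ceil (1 / (δ * (q ^ m * (1 - q))))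
    rwa [div_le_iff₀ (by positivity)] at this
  have hMle : (M : ℝ) * q ^ m ≤ 1 / (δ * (1 - q)) + 1 := by
    have := (Nat.ceil_lt_add_one (a := 1 / (δ * (q ^ m * (1 - q)))) (by positivity)).le
    calc (M : ℝ) * q ^ m ≤ (1 / (δ * (q ^ m * (1 - q))) + 1) * q ^ m :=
          mul_le_mul_of_nonneg_right this hqm.le
      _ = 1 / (δ * (1 - q)) + q ^ m := by field_simp
      _ ≤ _ := by linarith
  obtain ⟨G, T, N, hT, hN, hA, hB⟩ :=
    step_ind hp0 hp1 hq0 hq1 hδ0 hδ1 hβ F hF m M hM hMm K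
  refine ⟨G, ?_⟩
  set h : ℝ := F.ρ / M with hh
  have hh0 : 0 < h := by positivity
  set I := (Finset.univ : Finset Bool) ×ˢ Finset.range (⌈1 / (h * q)⌉₊ + 1) with hI
  have h0 : 0 ≤ 1 - p / 2 := by linarith
  have hcard : (I.card : ℝ) * (1 - p / 2) ^ (m * K) ≤ ε / 2 := by
    have e1 : (1 - p / 2) ^ (m * K) ≤ q ^ m * (1 / 2) ^ m := by
      rw [mul_comm, pow_mul, ← mul_pow]
      exact pow_le_pow_left₀ (pow_nonneg h0 _) (by linarith) m
    have e2 : (I.card : ℝ) ≤ 2 * (M / (F.ρ * q) + 2) := by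
      rw [hI, Finset.card_product, Finset.card_range]
      have := (Nat.ceil_lt_add_one (a := 1 / (h * q)) (by positivity)).le
      have e : 1 / (h * q) = M / (F.ρ * q) := by rw [hh]; field_simp
      rw [e] at this
      simp only [Finset.card_univ, Fintype.card_bool, e]
      push_cast
      linarith
    have e3 : (I.card : ℝ) * q ^ m ≤ C := by
      calc (I.card : ℝ) * q ^ m ≤ 2 * (M / (F.ρ * q) + 2) * q ^ m :=
            mul_le_mul_of_nonneg_right e2 hqm.le
        _ = 2 * ((M * q ^ m) / (F.ρ * q) + 2 * q ^ m) := by field_simp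
        _ ≤ C := by
            rw [hC]
            gcongr
            linarith
    rw [lt_div_iff₀ hC0] at hm
    calc _ ≤ (I.card : ℝ) * (q ^ m * (1 / 2) ^ m) :=
          mul_le_mul_of_nonneg_left e1 (Nat.cast_nonneg _)
      _ = (I.card : ℝ) * q ^ m * (1 / 2) ^ m := by ring
      _ ≤ C * (1 / 2) ^ m := mul_le_mul_of_nonneg_right e3 (by positivity)
      _ ≤ _ := by linarith
  have hpt : ∀ x, pr (fun ω => x ∈ {x | x ∈ Set.Ico (0 : ℝ) 1 ∧ bad q (G.V ω) x ∧ x ∈ T ω}) ≤
      N.indicator 1 x + (Set.Ico (0 : ℝ) 1).indicator (fun _ => ENNReal.ofReal (ε / 2)) x := by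
    intro x
    by_cases hxN : x ∈ N
    · rw [Set.indicator_of_mem hxN]
      exact (pr_le_one _).trans le_self_add
    by_cases hx : x ∈ Set.Ico (0 : ℝ) 1
    · rw [Set.indicator_of_mem hx]
      refine le_trans ?_ le_add_self
      calc _ ≤ pr (fun ω => ∃ i ∈ I, x ∈ T ω ∧
            ¬ RH q h (G.V ω) x ((if i.1 then 1 else -1) * (q + i.2 * (h * q)))) := by
            refine pr_mono fun ω hω => ?_
            obtain ⟨i, hi, hR⟩ := exists_net hq0 hq1 hh0 hω.2.1
            exact ⟨i, hi, hω.2.2, hR⟩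
        _ ≤ _ := pr_exists_le I _
        _ ≤ ∑ _i ∈ I, ENNReal.ofReal ((1 - p / 2) ^ (m * K)) := by
            refine Finset.sum_le_sum fun i _ => hB x hx hxN _ ?_
            refine mul_ne_zero (by split_ifs <;> norm_num) (by positivity)
        _ = ENNReal.ofReal (I.card * (1 - p / 2) ^ (m * K)) := by
            rw [Finset.sum_const, nsmul_eq_mul, ENNReal.ofReal_mul (Nat.cast_nonneg _),
              ENNReal.ofReal_natCast]
        _ ≤ _ := ENNReal.ofReal_le_ofReal hcard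
    · refine le_trans (pr_mono (Q := fun _ => False) fun ω hω => hx hω.1) ?_
      rw [pr_false]; exact zero_le
  have hB' : avg (fun ω => volume {x | x ∈ Set.Ico (0 : ℝ) 1 ∧ bad q (G.V ω) x ∧ x ∈ T ω}) ≤
      ENNReal.ofReal ε := by
    rw [avg_volume_eq (fun ω => {x | x ∈ Set.Ico (0 : ℝ) 1 ∧ bad q (G.V ω) x ∧ x ∈ T ω})
      (fun ω => measurableSet_Ico.inter
      ((isClosed_bad hq0 hq1 (G.hopen ω)).measurableSet.inter (hT ω)))]
    refine (lintegral_mono hpt).trans ?_
    rw [lintegral_add_right _ (measurable_const.indicator measurableSet_Ico),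
      lintegral_indicator_const measurableSet_Ico]
    calc _ ≤ ENNReal.ofReal (ε / 2) + ENNReal.ofReal (ε / 2) := by
          gcongr
          · exact (lintegral_indicator_one_le N).trans (hN.trans (ENNReal.ofReal_le_ofReal hδ2))
          · simp
      _ = _ := by rw [← ENNReal.ofReal_add (by positivity) (by positivity)]; congr 1; ring
  have hK1 : (1 / 2 : ℝ) ^ K ≤ 1 := pow_le_one₀ (by norm_num) (by norm_num)
  rw [ENNReal.ofReal_add (mul_nonneg (by linarith) hβ) hε.le]
  refine le_trans ?_ (add_le_add hA hB')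
  rw [← avg_add]
  refine avg_mono fun ω => le_trans (measure_mono ?_) (measure_union_le _ _)
  rintro x ⟨hx, hb⟩
  by_cases hxT : x ∈ T ω
  · exact Or.inr ⟨hx, hb, hxT⟩
  · exact Or.inl ⟨hx, hb, hxT⟩

lemma exists_fam {p q ε : ℝ} (hp0 : 0 < p) (hp1 : p ≤ 1) (hq0 : 0 < q) (hq1 : q < 1)
    (hε : 0 < ε) (F : Fam p) : ∃ G : Fam p, G.b q ≤ ENNReal.ofReal ε := by
  obtain ⟨K, hK⟩ := exists_pow_lt_of_lt_one (x := q / 2) (y := 1 - p / 2) (by positivity)
    (by linarith)
  set θ : ℝ := 1 - (1 / 2) ^ K with hθ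
  have hK1 : (1 / 2 : ℝ) ^ K ≤ 1 := pow_le_one₀ (by norm_num) (by norm_num)
  have hK0 : (0 : ℝ) < (1 / 2 : ℝ) ^ K := by positivity
  have hθ0 : 0 ≤ θ := by linarith
  have hθ1 : θ < 1 := by linarith
  have key : ∀ J : ℕ, ∀ e : ℝ, 0 < e → ∃ G : Fam p, G.b q ≤ ENNReal.ofReal (θ ^ J + e) := by
    intro J
    induction J with
    | zero =>
      intro e he
      exact ⟨F, (F.b_le_one q).trans (ENNReal.ofReal_le_ofReal (by simp; linarith))⟩
    | succ J ih =>
      intro e he
      obtain ⟨G, hG⟩ := ih (e / 2) (by positivity)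
      obtain ⟨G', hG'⟩ := step_main hp0.le hp1 hq0 hq1 (by positivity) (half_pos he) K hK.le G hG
      refine ⟨G', hG'.trans (ENNReal.ofReal_le_ofReal ?_)⟩
      rw [← hθ, pow_succ]
      nlinarith
  obtain ⟨J, hJ⟩ := exists_pow_lt_of_lt_one (half_pos hε) hθ1
  obtain ⟨G, hG⟩ := key J (ε / 2) (half_pos hε)
  exact ⟨G, hG.trans (ENNReal.ofReal_le_ofReal (by linarith))⟩

/-- key lemma -/
lemma key_lemma {q ε : ℝ} (hq0 : 0 < q) (hq1 : q < 1) (hε : 0 < ε) :
    ∃ V : Set ℝ, V ⊆ Set.Ioo (-1) 2 ∧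
      volume (V ∪ {x | x ∈ Set.Ico (0 : ℝ) 1 ∧ bad q V x}) ≤ ENNReal.ofReal ε := by
  obtain ⟨P, hP⟩ := exists_nat_one_div_lt (K := ℝ) (ε := ε / 6) (by positivity)
  have hp1 : 1 / ((P : ℝ) + 1) ≤ 1 := by
    rw [div_le_one (by positivity)]; linarith [(Nat.cast_nonneg P : (0 : ℝ) ≤ P)]
  obtain ⟨G, hG⟩ := exists_fam (by positivity) hp1 hq0 hq1 (half_pos hε) (Fam.base P)
  obtain ⟨ω, hω⟩ := exists_le_avg (fun ω => volume (G.V ω) +
    volume {x | x ∈ Set.Ico (0 : ℝ) 1 ∧ bad q (G.V ω) x})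
  refine ⟨G.V ω, G.hsub ω, (measure_union_le _ _).trans (hω.trans ?_)⟩
  rw [avg_add]
  calc _ ≤ ENNReal.ofReal (ε / 2) + ENNReal.ofReal (ε / 2) :=
        add_le_add (G.hvol.trans (ENNReal.ofReal_le_ofReal (by linarith))) hG
    _ = _ := by rw [← ENNReal.ofReal_add (by positivity) (by positivity)]; congr 1; ring

theorem main (q η : ℝ) (hq : q ∈ Set.Ioo 0 1) (hη : η ∈ Set.Ioo 0 1) :
    ∃ E : Set ℝ, IsCompact E ∧ E ⊆ Set.Icc 0 1 ∧
      ENNReal.ofReal (1 - η) < MeasureTheory.volume E ∧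
      ∀ x s : ℝ, s ≠ 0 → ∃ n : ℕ, 1 ≤ n ∧ x + s * q ^ n ∉ E := by
  obtain ⟨hq0, hq1⟩ := hq
  obtain ⟨hη0, hη1⟩ := hη
  have hpos : ∀ k : ℕ, 0 < η / 2 / 2 / 2 ^ k := fun k => by positivity
  choose V hV1 hV2 using fun k : ℕ => key_lemma hq0 hq1 (hpos k)
  set Z : Set ℝ := ⋃ k : ℕ, tile (k + 1) fun _ => V k ∪ {x | x ∈ Set.Ico (0 : ℝ) 1 ∧ bad q (V k) x}
    with hZ
  have hZvol : volume Z ≤ ENNReal.ofReal (η / 2) := by
    refine (measure_iUnion_le _).trans ?_
    calc _ ≤ ∑' k : ℕ, ENNReal.ofReal (η / 2 / 2 / 2 ^ k) :=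
          ENNReal.tsum_le_tsum fun k => (volume_tile_const_le (Nat.succ_pos k) _).trans (hV2 k)
      _ = _ := by
          rw [← ENNReal.ofReal_tsum_of_nonneg (fun k => (hpos k).le) (summable_geometric_two' _),
            tsum_geometric_two']
  set A : Set ℝ := Set.Ico 0 1 \ toMeasurable volume Z with hA
  have hAm : MeasurableSet A := measurableSet_Ico.diff (measurableSet_toMeasurable _ _)
  have hAv : ENNReal.ofReal (1 - η) < volume A := by
    have h1 : volume (Set.Ico (0 : ℝ) 1) - volume (toMeasurable volume Z) ≤ volume A :=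
      le_measure_sdiff
    rw [measure_toMeasurable, Real.volume_Ico, sub_zero] at h1
    refine lt_of_lt_of_le ?_ ((tsub_le_tsub_left hZvol _).trans h1)
    rw [← ENNReal.ofReal_sub _ (by positivity)]
    exact (ENNReal.ofReal_lt_ofReal_iff (by linarith)).2 (by linarith)
  have hAfin : volume A ≠ ⊤ :=
    ne_top_of_le_ne_top (by simp) (measure_mono (t := Set.Ico (0 : ℝ) 1) Set.sdiff_subset)
  obtain ⟨E, hEA, hEc, hEv⟩ := hAm.exists_lt_isCompact_of_ne_top hAfin hAv
  refine ⟨E, hEc, fun x hx => Set.Ico_subset_Icc_self (hEA hx).1, hEv, fun x s hs => ?_⟩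
  by_contra hcon
  push Not at hcon
  have hxE : x ∈ E := by
    have h1 : Filter.Tendsto (fun n : ℕ => x + s * q ^ n) Filter.atTop (nhds (x + s * 0)) :=
      ((tendsto_pow_atTop_nhds_zero_of_lt_one hq0.le hq1).const_mul s).const_add x
    rw [mul_zero, add_zero] at h1
    exact hEc.isClosed.mem_of_tendsto h1 (Filter.eventually_atTop.2 ⟨1, hcon⟩)
  have hs' : 0 < |s| := abs_pos.2 hs
  obtain ⟨k, hk⟩ := exists_nat_gt (2 / (|s| * q))
  rw [div_lt_iff₀ (by positivity)] at hk
  have hnotZ : ∀ y ∈ E, y ∉ Z := fun y hy h => (hEA hy).2 (subset_toMeasurable _ _ h)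
  obtain ⟨j, hj⟩ := exists_tile (Nat.succ_pos k) (hEA hxE).1
  have hnb : ¬ bad q (V k) (((k + 1 : ℕ) : ℝ) * x - (j : ℕ)) := fun h =>
    hnotZ x hxE (Set.mem_iUnion.2 ⟨k, j, Or.inr ⟨hj, h⟩⟩)
  unfold bad at hnb
  push Not at hnb
  have hk0 : (0 : ℝ) < ((k + 1 : ℕ) : ℝ) := by positivity
  obtain ⟨n, hn⟩ := hnb (((k + 1 : ℕ) : ℝ) * s) (mul_ne_zero hk0.ne' hs)
  have h2 := hV1 k hn
  have hqn : 0 < q ^ n := zpow_pos hq0 n
  have h3 : |((k + 1 : ℕ) : ℝ) * s * q ^ n| < 2 := by
    rw [abs_lt]; constructor <;> linarith [h2.1, h2.2, hj.1, hj.2]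
  rw [abs_mul, abs_mul, abs_of_pos hk0, abs_of_pos hqn] at h3
  have h4 : q ^ n < q ^ (1 : ℤ) := by
    rw [zpow_one]
    by_contra h
    push Not at h
    push_cast at h3
    have : (k + 1 : ℝ) * |s| * q ≤ (k + 1) * |s| * q ^ n :=
      mul_le_mul_of_nonneg_left h (by positivity)
    nlinarith [mul_pos hs' hq0]
  have h5 : 1 < n := (zpow_lt_zpow_iff_right_of_lt_one₀ hq0 hq1).1 h4
  obtain ⟨n', rfl⟩ := Int.eq_ofNat_of_zero_le (by omega : 0 ≤ n)
  refine hnotZ _ (hcon n' (by omega)) (Set.mem_iUnion.2 ⟨k, j, Or.inl ?_⟩)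
  rw [zpow_natCast] at hn
  convert hn using 1; ring

end Crest.Agent.GeomAvoid
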